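import Crest.Agent.X212.Dgr80.Lf
import Crest.Agent.X212.Nka63.B
import Mathlib.Analysis.SpecialFunctions.ImproperIntegrals

/-! EN-DIR (helper36): decay of the densities and the limits of the Dirac term. -/

set_option autoImplicit false
set_option linter.unusedSectionVars false
noncomputable section
open scoped Manifold ContDiff Topology InnerProductSpace
open MeasureTheory Set Function Filter Asymptotics

namespace Crest.Agent.X212.En36
open An Wz78 Sob92 Nd18 Cyf70 Dgr80
open Cyc79 (cb_sm cb_bdd)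

section big
variable {X V W : Type} [NormedAddCommGroup V] [NormedSpace ℝ V] [NormedAddCommGroup W]
  [NormedSpace ℝ W] {l : Filter X} {e f g : X → ℝ}

theorem o1 {u : X → V} (h : ∃ C, ∀ x, ‖u x‖ ≤ C) : u =O[l] fun _ => (1 : ℝ) :=
  let ⟨C, h⟩ := h; IsBigO.of_bound C (.of_forall fun x => by simpa using h x)

theorem o_app {T : X → V →L[ℝ] W} {u : X → V} (hT : T =O[l] f) (hu : u =O[l] g) :
    (fun x => T x (u x)) =O[l] fun x => f x * g x :=
  (isBigO_of_le l (g := fun x => ‖T x‖ * ‖u x‖) fun x =>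
    ((T x).le_opNorm _).trans (le_abs_self _)).trans (hT.norm_left.mul hu.norm_left)

theorem app1 {T : X → V →L[ℝ] W} {u : X → V} (hT : T =O[l] fun _ => (1 : ℝ)) (hu : u =O[l] e) :
    (fun x => T x (u x)) =O[l] e := by simpa using o_app hT hu

theorem app2 {T : X → V →L[ℝ] W} {u : X → V} (hT : T =O[l] e) (hu : u =O[l] fun _ => (1 : ℝ)) :
    (fun x => T x (u x)) =O[l] e := by simpa using o_app hT hu

theorem clm (T : V →L[ℝ] W) {u : X → V} (hu : u =O[l] e) : (fun x => T (u x)) =O[l] e :=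
  (T.isBigO_comp u l).trans hu

theorem o_pi {ι : Type} [Fintype ι] {u : X → Fm ι V} (h : ∀ k, (fun x => u x k) =O[l] e) :
    u =O[l] e := clm (PiLp.continuousLinearEquiv 2 ℝ fun _ : ι => V).symm.toContinuousLinearMap
  (u := fun x k => u x k) (isBigO_pi.2 h)

theorem o_inn {U : Type} [NormedAddCommGroup U] [InnerProductSpace ℝ U] {u v : X → U}
    (hu : u =O[l] f) (hv : v =O[l] g) : (fun x => ⟪u x, v x⟫_ℝ) =O[l] fun x => f x * g x :=
  (isBigO_of_le l (g := fun x => ‖u x‖ * ‖v x‖) fun x =>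
    (norm_inner_le_norm _ _).trans (le_abs_self _)).trans (hu.norm_left.mul hv.norm_left)

end big

theorem int_exp {δ : ℝ} (hδ : 0 < δ) : Integrable fun t : ℝ => Real.exp (-δ * |t|) := by
  rw [← integrableOn_univ, ← Iic_union_Ioi (a := 0)]
  exact ((integrableOn_exp_mul_Iic hδ 0).congr_fun (fun t ht => by
    simp [abs_of_nonpos (show t ≤ 0 from ht)]) measurableSet_Iic).union
    ((integrableOn_exp_mul_Ioi (neg_lt_zero.2 hδ) 0).congr_fun (fun t ht => by
      simp [abs_of_pos (show 0 < t from ht)]) measurableSet_Ioi)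

section int
variable {Y : Type} [MeasurableSpace Y] {μ : Measure Y} [IsFiniteMeasure μ] {d : ℝ}

/-- the two half cylinders -/
abbrev hf (Y : Type) (s : Bool) : Filter (Y × ℝ) := 𝓟 {x | 0 ≤ (bif s then x.2 else -x.2)}

/-- the decay -/
abbrev ex (d : ℝ) (x : Y × ℝ) : ℝ := Real.exp (-d * |x.2|)

theorem int_of (hd : 0 < d) {f : Y × ℝ → ℝ} (hm : AEStronglyMeasurable f (μ.prod volume))
    (h : ∀ s, f =O[hf Y s] ex d) : Integrable f (μ.prod volume) := by
  choose C hC using fun s => isBigO_principal.1 (h s)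
  refine ((integrable_const (max (C true) (C false))).mul_prod (int_exp hd)).mono' hm
    (ae_of_all _ fun x => ?_)
  have k : ∀ s, C s * ‖ex d x‖ ≤ max (C true) (C false) * Real.exp (-d * |x.2|) := fun s => by
    rw [Real.norm_of_nonneg (Real.exp_pos _).le]
    exact mul_le_mul_of_nonneg_right (by cases s <;> simp) (Real.exp_pos _).le
  rcases le_total 0 x.2 with j | j
  exacts [(hC true x j).trans (k _), (hC false x (neg_nonneg.2 j)).trans (k _)]

theorem lim_of (hd : 0 < d) {f : Y × ℝ → ℝ} (hm : AEStronglyMeasurable f (μ.prod volume))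
    {g : Bool → Y → ℝ} (hg : ∀ s, Integrable (g s) μ)
    (h : ∀ s, (fun x => f x - g s x.1) =O[hf Y s] ex d) :
    Tendsto (fun n : ℕ => ∫ x, deriv (ct (some (-n)) (some n) 0) x.2 * f x ∂μ.prod volume) atTop
      (𝓝 (∫ y, g false y ∂μ - ∫ y, g true y ∂μ)) := by
  obtain ⟨B, hB⟩ := bd_ct
  set θ : ℕ → ℝ → ℝ := fun n => ct (some (-n)) (some n) 0
  have sm : ∀ n, ContDiff ℝ 1 (θ n) := fun n => contDiff_ct.of_le (by simp)
  have cs : ∀ n, HasCompactSupport (θ n) := fun n => (isCompact_Icc (a := -(n : ℝ)) (b := n)).of_isClosed_subset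
    (isClosed_tsupport _) (tsupport_ct.trans fun t k => ⟨by simpa using k.1 _ rfl, by simpa using k.2 _ rfl⟩)
  have i1 : ∀ n, Integrable (deriv (θ n)) := fun n =>
    ((sm n).continuous_deriv le_rfl).integrable_of_hasCompactSupport (cs n).deriv
  have i2 : ∀ n s {S : Set ℝ}, MeasurableSet S → Integrable
      (fun x : Y × ℝ => g s x.1 * S.indicator (deriv (θ n)) x.2) (μ.prod volume) :=
    fun n s S hS => (hg s).mul_prod ((i1 n).indicator hS)
  let u : Y × ℝ → ℝ := fun x =>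
    f x - g false x.1 * (Iic 0).indicator 1 x.2 - g true x.1 * (Ioi 0).indicator 1 x.2
  have mu : AEStronglyMeasurable u (μ.prod volume) :=
    (hm.sub ((hg _).1.comp_fst.mul (aestronglyMeasurable_one.indicator measurableSet_Iic).comp_snd)).sub
      ((hg _).1.comp_fst.mul (aestronglyMeasurable_one.indicator measurableSet_Ioi).comp_snd)
  have iu : Integrable u (μ.prod volume) := by
    choose C hC using fun s => isBigO_principal.1 (h s)
    refine int_of hd mu fun s => isBigO_principal.2 ⟨max (C true) (C false), fun x _ => ?_⟩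
    rcases le_or_gt x.2 0 with j | j
    · simpa [u, j] using (hC false x (neg_nonneg.2 j)).trans
        (mul_le_mul_of_nonneg_right (le_max_right _ _) (norm_nonneg _))
    · simpa [u, j, j.not_ge] using (hC true x j.le).trans
        (mul_le_mul_of_nonneg_right (le_max_left _ _) (norm_nonneg _))
  have bd : ∀ n t, ‖deriv (θ n) t‖ ≤ B 1 := fun n t => by
    simpa using (hB _ _ _).2 1 1 le_rfl t
  have mθ : ∀ n, AEStronglyMeasurable (fun x : Y × ℝ => deriv (θ n) x.2) (μ.prod volume) :=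
    fun n => (i1 n).1.comp_snd
  have t0 : Tendsto (fun n => ∫ x, deriv (θ n) x.2 * u x ∂μ.prod volume) atTop (𝓝 0) := by
    rw [← integral_zero (Y × ℝ) ℝ (μ := μ.prod volume)]
    refine tendsto_integral_of_dominated_convergence (fun x => B 1 * ‖u x‖)
      (fun n => (mθ n).mul mu) (iu.norm.const_mul _) (fun n => ae_of_all _ fun x => by
        rw [norm_mul]; exact mul_le_mul_of_nonneg_right (bd n _) (norm_nonneg _))
      (ae_of_all _ fun x => tendsto_const_nhds.congr' ?_)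
    filter_upwards [tendsto_natCast_atTop_atTop.eventually_gt_atTop (|x.2| + 1)] with n hn
    have : θ n =ᶠ[𝓝 x.2] fun _ => 1 := by
      filter_upwards [(isOpen_Ioo (a := -(n : ℝ) + 1) (b := n - 1)).mem_nhds
        ⟨by linarith [neg_abs_le x.2], by linarith [le_abs_self x.2]⟩] with t k
      exact ct_one ⟨by simpa using k.1.le, by simpa using k.2.le⟩
    rw [this.deriv_eq, deriv_const, zero_mul]
  rw [← zero_add (_ - _)]
  refine (t0.add tendsto_const_nhds).congr' ?_
  filter_upwards [eventually_ge_atTop 1] with n hn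
  have one : θ n 0 = 1 := ct_one ⟨by simpa using hn, by simpa using hn⟩
  have e : ∀ x : Y × ℝ, deriv (θ n) x.2 * f x = deriv (θ n) x.2 * u x +
      (g false x.1 * (Iic 0).indicator (deriv (θ n)) x.2 +
        g true x.1 * (Ioi 0).indicator (deriv (θ n)) x.2) := fun x => by
    rcases le_or_gt x.2 0 with j | j
    · simp [u, j]; ring
    · simp [u, j, j.not_ge]; ring
  rw [integral_congr_ae (ae_of_all _ e), integral_add (iu.bdd_mul (mθ n) (ae_of_all _ fun x => bd n _))
    ((i2 n _ measurableSet_Iic).fun_add (i2 n _ measurableSet_Ioi)),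
    integral_add (i2 n _ measurableSet_Iic) (i2 n _ measurableSet_Ioi), integral_prod_mul,
    integral_prod_mul, integral_indicator measurableSet_Iic, integral_indicator measurableSet_Ioi,
    (cs n).integral_Iic_deriv_eq (sm n), (cs n).integral_Ioi_deriv_eq (sm n), one]
  ring

theorem ex1 (hd : 0 < d) {l : Filter (Y × ℝ)} : ex d =O[l] fun _ => (1 : ℝ) :=
  o1 ⟨1, fun x => by
    rw [Real.norm_of_nonneg (Real.exp_pos _).le, Real.exp_le_one_iff]
    nlinarith [abs_nonneg x.2]⟩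

theorem o_sq (hd : 0 < d) {V : Type} [NormedAddCommGroup V] {l : Filter (Y × ℝ)} {u : Y × ℝ → V}
    (h : u =O[l] ex d) : (fun x => ‖u x‖ ^ 2) =O[l] ex d := by
  simpa [sq] using h.norm_left.mul (h.trans (ex1 hd)).norm_left

end int

section gen
variable {E : Type} [NormedAddCommGroup E] [NormedSpace ℝ E] [FiniteDimensional ℝ E]
  [MeasurableSpace E] [BorelSpace E]
  {HM : Type} [TopologicalSpace HM] {I : ModelWithCorners ℝ E HM} [I.Boundaryless]
  {M : Type} [TopologicalSpace M] [ChartedSpace HM M] [IsManifold I ∞ M]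
  [MeasurableSpace M] [T2Space M] [BorelSpace M] [SecondCountableTopology M]
  {ι : Type} [Fintype ι] {lam : Type} [Fintype lam] {r : ℕ} {l : Filter M} {e : M → ℝ}
  {V : Type} [NormedAddCommGroup V] [NormedSpace ℝ V]

theorem ob {F : Pre I M ι} {u : M → V} (h : F.Cb u) : u =O[l] fun _ => (1 : ℝ) := o1 (cb_bdd h)

theorem o_nab {F : Pre I M ι} {W W' : ι → M → V →L[ℝ] V} {u u' : M → V} {k : ι} (hu : F.Cb u)
    (hu' : F.Cb u') (hW : F.Cb (W' k)) (h0 : (u - u') =O[l] e) (h1 : F.D k (u - u') =O[l] e)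
    (h2 : (W k - W' k) =O[l] e) :
    (fun x => nab I F.e W k u x - nab I F.e W' k u' x) =O[l] e :=
  ((h1.add (app1 (ob hW) h0)).add (app2 h2 (ob hu))).congr_left fun x => by
    rw [Pre.D_def, dv_sub ((cb_sm hu).mdifferentiableAt (by simp))
      ((cb_sm hu').mdifferentiableAt (by simp))]
    simp only [nab, Pi.sub_apply, map_sub, _root_.sub_apply]
    abel

variable {B : Base M ι lam} {G : Geo I M ι lam} {c : Cfg M ι lam r}

theorem o_Fg (h : Cyc79.CO B G c) : c.m.Fg G.F c.W =O[l] fun _ => (1 : ℝ) :=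
  o_pi fun s => app1 (ob h.pg) (clm hsL (u := curv I G.F.e G.F.c c.W s.1 s.2)
    (ob (F := G.F.toPre) (Cb_sub (Cb_add (Cb_sub (Cb_D (h.W _) _) (Cb_D (h.W _) _))
      (Cb_sub (Cb_comp (h.W _) (h.W _)) (Cb_comp (h.W _) (h.W _))))
      (Cb_sum _ fun k _ => Cb_smul ⟨_, h.tame.choose_spec.c _ _ k⟩ (h.W k)))))

theorem cb_dir (h : Gd B G c) : G.F.Cb (dir I G.F.e c.m.ρ c.W c.Φ) :=
  Cb_sum _ fun a _ => Cb_app (h.ρ a) (Cb_add (Cb_D h.Φ a) (Cb_app (h.W a) h.Φ))

end gen

variable {E3 : Type} [NormedAddCommGroup E3] [NormedSpace ℝ E3] [FiniteDimensional ℝ E3]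
  [MeasurableSpace E3] [BorelSpace E3]
  {H3 : Type} [TopologicalSpace H3] {I3 : ModelWithCorners ℝ E3 H3} [I3.Boundaryless]
  {Y : Type} [TopologicalSpace Y] [ChartedSpace H3 Y] [IsManifold I3 ∞ Y] [T2Space Y]
  [MeasurableSpace Y] [BorelSpace Y] [SecondCountableTopology Y] [CompactSpace Y]
  {κ : Type} [Fintype κ] {lam : Type} [Fintype lam]

section ti
variable {N : Type} [NormedAddCommGroup N] [NormedSpace ℝ N] (D : YD I3 Y κ lam) {f : Y → N}
  (h : Sm (IC I3) fun x : Y × ℝ => f x.1)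
include h

theorem D_n0 (x : Y × ℝ) : D.Z.D none (fun x => f x.1) x = 0 :=
  (D_none _ h _).trans (deriv_const x.2 (f x.1))

theorem D_ti (k : Option κ) (x : Y × ℝ) :
    D.Z.D k (fun x => f x.1) (x.1, 0) = D.Z.D k (fun x => f x.1) x := by
  cases k
  exacts [(D_n0 D h _).trans (D_n0 D h _).symm, (D_some _ h _ _).trans (D_some _ h _ x).symm]

end ti

variable {D : YD I3 Y κ lam} {β : YC Y κ lam} {d : ℝ} {α : Y × ℝ → Fm (Option κ) β.m.A}
  {φ : Y × ℝ → β.m.V} {a : Bool → Y → Fm (Option κ) β.m.A} {b : Bool → Y → β.m.V}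

variable (β) in
/-- the connection `β + α` -/
def W0 (α : Y × ℝ → Fm (Option κ) β.m.A) (k : Option κ) (x : Y × ℝ) : En (Fin β.m.N) :=
  β.W k x.1 + opL (α x k)

variable (β) in
/-- the spinor `β + φ` -/
def P0 (φ : Y × ℝ → β.m.V) (x : Y × ℝ) : β.m.V := β.Φ x.1 + φ x

variable (β) in
/-- Clifford multiplication -/
def R0 (k : Option κ) (x : Y × ℝ) : En (Fin β.m.N) := β.m.ρ k x.1

variable (D) in
/-- the Dirac operator of a limit -/
def D0 (a : Y → Fm (Option κ) β.m.A) (b : Y → β.m.V) : Y × ℝ → β.m.V :=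
  dir (IC I3) D.Z.e (R0 β) (W0 β fun x => a x.1) (P0 β fun x => b x.1)

/-- evaluation of a one-form -/
abbrev L0 (k : Option κ) : Fm (Option κ) β.m.A →L[ℝ] En (Fin β.m.N) :=
  opL ∘L PiLp.proj (𝕜 := ℝ) 2 (fun _ : Option κ => β.m.A) k

theorem eW (α α' : Y × ℝ → Fm (Option κ) β.m.A) (k : Option κ) :
    W0 β α k - W0 β α' k = fun z => L0 k (α z - α' z) := funext fun _ =>
  (add_sub_add_left_eq_sub _ _ _).trans (map_sub opL _ _).symm

theorem eP (φ φ' : Y × ℝ → β.m.V) : P0 β φ - P0 β φ' = fun z => φ z - φ' z :=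
  funext fun _ => add_sub_add_left_eq_sub _ _ _

section tq
variable (T : Tq D β d α φ a b) (s : Bool)
include T

theorem hAP {w : List (Option κ)} (hw : w.length ≤ 1) :
    D.Z.Dw w (fun z => α z - a s z.1) =O[hf Y s] ex d ∧
      D.Z.Dw w (fun z => φ z - b s z.1) =O[hf Y s] ex d := by
  obtain ⟨C, hC⟩ := T.lim
  have n : ∀ x : Y × ℝ, Real.exp (-d * |x.2|) = ‖ex d x‖ := fun x =>
    (Real.norm_of_nonneg (Real.exp_pos _).le).symm
  exact ⟨isBigO_principal.2 ⟨C, fun x hx => n x ▸ (hC s w hw x hx).1⟩,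
    isBigO_principal.2 ⟨C, fun x hx => n x ▸ (hC s w hw x hx).2⟩⟩

theorem cW (k : Option κ) : D.Z.Cb (W0 β α k) := T.gd.W k

theorem cW' (k : Option κ) : D.Z.Cb (W0 β (fun x => a s x.1) k) := (T.lgd s).W k

theorem cP : D.Z.Cb (P0 β φ) := T.gd.Φ

theorem cP' : D.Z.Cb (P0 β fun x => b s x.1) := (T.lgd s).Φ

theorem cR (k : Option κ) : D.Z.Cb (R0 β k) := T.gd.ρ k

theorem cD : D.Z.Cb (D0 D (a s) (b s)) := cb_dir (T.lgd s)

theorem oP : (P0 β φ - P0 β fun x => b s x.1) =O[hf Y s] ex d :=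
  eP φ _ ▸ (hAP T s (w := []) zero_le_one).2

theorem hn (k : Option κ) : (fun x => nab (IC I3) D.Z.e (W0 β α) k (P0 β φ) x -
    nab (IC I3) D.Z.e (W0 β fun x => a s x.1) k (P0 β fun x => b s x.1) x) =O[hf Y s] ex d :=
  o_nab (cP T) (cP' T s) (cW' T s k) (oP T s) (eP φ _ ▸ (hAP T s (w := [k]) le_rfl).2)
    (eW α _ k ▸ clm (L0 k) (hAP T s (w := []) zero_le_one).1)

variable [DecidableEq κ] (P : PN D.B D.G Prod.snd none univ)
include P

theorem xp : xP D.Z (vr (cy β) α φ) Prod.snd =O[hf Y s] ex d := (hn T s none).congr_left fun x => by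
  have e : nab (IC I3) D.Z.e (W0 β fun x => a s x.1) none (P0 β fun x => b s x.1) x = 0 := by
    rw [nab, show W0 β (fun x => a s x.1) none x = 0 from (T.lad s).tmp x.1]
    exact (add_zero _).trans (D_n0 D (f := fun y => β.Φ y + b s y) (cb_sm (cP' T s)) x)
  rw [e, sub_zero]
  exact (P.toPrd.xP_eq (vr (cy β) α φ) (mem_univ x)).symm

theorem xa : xA D.Z (vr (cy β) α φ) Prod.snd =O[hf Y s] ex d := o_pi fun k =>
  (app1 (ob T.gd.pg) (clm hsL (clm (L0 k) (hAP T s (w := [none]) le_rfl).1))).congr_left fun x => by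
    refine (congrArg (fun T => β.m.pg x.1 (hsL T)) ?_).trans
      (P.toPrd.xA_eq (vr (cy β) α φ) (mem_univ x) k).symm
    have w0 : W0 β α none = 0 := funext fun x => by simp [W0, T.adm.tmp, T.tm]
    have e := dv_sub (e := D.Z.e none) (x := x) ((cb_sm (cW T k)).mdifferentiableAt (by simp))
      ((cb_sm (cW' T s k)).mdifferentiableAt (by simp))
    rw [eW, ← Pre.D_def _ _ (W0 β (fun x => a s x.1) k),
      show D.Z.D none (W0 β (fun x => a s x.1) k) x = 0 from
        D_n0 D (f := fun y => β.W k y + opL (a s y k)) (cb_sm (cW' T s k)) x] at e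
    refine ((dv_clm (L0 k) (((cb_sm T.cA).sub (sm_fst (T.sa s))).mdifferentiableAt
      (by simp))).symm.trans e).trans (?_ : _ = curv (IC I3) D.Z.e D.Z.c (W0 β α) none k x)
    simp [curv, w0, show ∀ l, D.Z.c none k l x = 0 from P.c1 x trivial k]

theorem o_kd : (vr (cy β) α φ).m.kd D.B D.Z (vr (cy β) α φ).W =O[hf Y s] ex d := by
  have h1 := (isBigO_of_le (hf Y s) fun x => Mp86.norm_p2 P.hB _ x _).trans (o_Fg T.gd.toCO)
  have h2 := (isBigO_of_le (hf Y s) fun x => (P.toPrd.norm_oT (mem_univ x) _).le).trans (xa T s P)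
  refine (((((o_sq T.d0 (xa T s P)).const_mul_left 4⁻¹).sub (((o_inn h1 h2).congr_right
    fun x => one_mul _).const_mul_left 2⁻¹)).const_mul_left (8 * Real.pi ^ 2)⁻¹).congr_left
    fun x => ?_)
  rw [inv_mul_eq_iff_eq_mul₀ (by positivity), ← div_eq_inv_mul, ← div_eq_inv_mul, sub_eq_iff_eq_add]
  exact P.kd_eq T.gd.adm (mem_univ x)

theorem o_dY : (fun x => ⟪dY D.Z (vr (cy β) α φ) Prod.snd x, P0 β φ x⟫_ℝ -
    ⟪-β.m.ρ none x.1 (D0 D (a s) (b s) (x.1, 0)), β.Φ x.1 + b s x.1⟫_ℝ) =O[hf Y s] ex d := by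
  have h1 : (fun x => dir (IC I3) D.Z.e (R0 β) (W0 β α) (P0 β φ) x - D0 D (a s) (b s) x)
      =O[hf Y s] ex d := (IsBigO.sum (s := .univ) fun k _ => app1 (ob (cR T k))
      (hn T s k)).congr_left fun x => (Finset.sum_apply _ _ _).trans <| (Finset.sum_congr rfl
        fun k _ => map_sub _ _ _).trans (Finset.sum_sub_distrib _ _)
  let X : Y × ℝ → β.m.V := xP D.Z (vr (cy β) α φ) Prod.snd
  have h2 := o_inn ((app1 (ob (cR T none)) h1).neg_left.sub (f₂ := X) (xp T s P)) (ob (cP T))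
  have h3 := o_inn (app1 (ob (cR T none)) (ob (cD T s))).neg_left (oP T s)
  refine ((h2.congr_right fun x => mul_one _).add (h3.congr_right fun x => one_mul _)).congr_left
    fun x => ?_
  have e : D0 D (a s) (b s) (x.1, 0) = D0 D (a s) (b s) x := Finset.sum_congr rfl fun k _ =>
    congrArg (fun v => R0 β k x (v + W0 β (fun x => a s x.1) k x (P0 β (fun x => b s x.1) x)))
      (D_ti D (f := fun y => β.Φ y + b s y) (cb_sm (cP' T s)) k x)
  have e' : dY D.Z (vr (cy β) α φ) Prod.snd x =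
      -R0 β none x (dir (IC I3) D.Z.e (R0 β) (W0 β α) (P0 β φ) x) - X x :=
    congrArg (fun T : En (Fin β.m.N) => -T _ - X x) (P.toPrd.cT_eq (vr (cy β) α φ) (mem_univ x))
  rw [e, e']
  change _ = @inner ℝ β.m.V _ _ _ - ⟪-R0 β none x _, P0 β (fun x => b s x.1) x⟫_ℝ
  simp only [map_sub, inner_sub_left, inner_sub_right, inner_neg_left, Pi.sub_apply]
  ring

end tq

/-- **LEAF EN-DIR** -/
theorem dirStmt : DirStmt I3 Y κ lam := by
  intro D hD β d α φ a b T
  classical
  have P := Nka63.nk_pn D hD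
  have A := T.gd.adm
  refine ⟨int_of T.d0 (P.sm_en A).continuous.aestronglyMeasurable fun s => ?_,
    int_of T.d0 (P.sm_kd A).continuous.aestronglyMeasurable fun s => o_kd T s P,
    lim_of (μ := D.F.μ) (g := fun s y => ⟪-β.m.ρ none y (D0 D (a s) (b s) (y, 0)), β.Φ y + b s y⟫_ℝ)
      T.d0 (sm_inner (P.sm_dY A) A.sm).continuous.aestronglyMeasurable (fun s => ?_)
      fun s => o_dY T s P⟩
  · exact (((o_sq T.d0 (xa T s P)).const_mul_left 4⁻¹).add (o_sq T.d0 (xp T s P))).congr_left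
      fun x => by rw [en, div_eq_inv_mul]
  · exact ((((cb_sm (cR T none)).clm_apply (cb_sm (cD T s))).continuous.neg.inner
      (cb_sm (cP' T s)).continuous).comp
        (Continuous.prodMk_left 0)).integrable_of_hasCompactSupport (.of_compactSpace _)

end Crest.Agent.X212.En36
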